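import Vale.Agent.N013L.Prim
import Vale.Agent.N013L.Main2

namespace Vale.Agent.Results.P013.A0LowerBound

open Filter Real Vale.Agent.N013

/-- (1) The lower bound `≫ k (log k)² / log log log k` for `j(P_k)` and `h(k)`; (2) the covering of a long
interval by one residue class modulo each prime. -/
theorem result :
    (∃ c : ℝ, 0 < c ∧ ∀ᶠ k : ℕ in atTop,
      ENNReal.ofReal (c * k * log k ^ 2 / log (log (log k))) ≤ j (P k) ∧
      ENNReal.ofReal (c * k * log k ^ 2 / log (log (log k))) ≤ h k) ∧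
    ∃ c : ℝ, 0 < c ∧ ∀ᶠ x : ℕ in atTop, ∃ a : ℕ → ℤ, ∀ m : ℤ, 1 ≤ m →
      (m : ℝ) ≤ c * x * log x / log (log (log x)) →
      ∃ p : ℕ, p.Prime ∧ p ≤ 64 * x ∧ (p : ℤ) ∣ m - a p := by
  obtain ⟨c, hc, H⟩ := N013L.jac3 N013L.cover3'
  exact ⟨⟨c, hc, H.mono fun k hk => ⟨hk, hk.trans (N013L.j_prim_le k)⟩⟩, N013L.cover3'⟩

end Vale.Agent.Results.P013.A0LowerBound
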