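import Vale.Agent.N013.Asy

namespace Vale.Agent.Results.P013.A0Primorials

open scoped ArithmeticFunction.omega
open Filter Real Vale.Agent.N013

/-- (1) Reduction of Jacobsthal's function `h` to the primorials; (2) a sandwich; (3), (4) transfer
of power and polylogarithmic bounds; (5) Vaughan's estimate is equivalent to its primorial case. -/
theorem result :
    (∀ k z y K : ℕ, 1 ≤ z → (Nat.primeCounting z : ℝ) + k * (y / z + 1) ≤ K →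
      j (P K) ≤ y → h k ≤ y) ∧
    (∀ B > (0 : ℝ), ∀ᶠ k : ℕ in atTop,
      j (P k) ≤ h k ∧ h k ≤ j (P ⌈(k : ℝ) ^ (3 / 2 : ℝ) / log k ^ B⌉₊)) ∧
    (∀ β : ℝ, 1 ≤ β → β < 2 →
      (∃ C : ℝ, ∀ k : ℕ, 1 ≤ k → j (P k) ≤ ENNReal.ofReal (C * (k : ℝ) ^ β)) →
      ∃ C : ℝ, ∀ k : ℕ, 1 ≤ k → h k ≤ ENNReal.ofReal (C * (k : ℝ) ^ (β / (2 - β)))) ∧
    (∀ a : ℝ, 1 ≤ a →
      (∃ C : ℝ, ∀ᶠ k : ℕ in atTop, j (P k) ≤ ENNReal.ofReal (C * k * log k ^ a)) →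
      ∃ C : ℝ, ∀ᶠ k : ℕ in atTop, h k ≤ ENNReal.ofReal (C * k * log k ^ (2 * a - 1))) ∧
    ((∀ ε > (0 : ℝ), ∃ C : ℝ, ∀ n : ℕ, 1 < n → j n ≤ ENNReal.ofReal (C * (ω n : ℝ) ^ (1 + ε))) ↔
      ∀ ε > (0 : ℝ), ∃ C : ℝ, ∀ k : ℕ, 1 ≤ k →
        j (P k) ≤ ENNReal.ofReal (C * (k : ℝ) ^ (1 + ε))) :=
  ⟨fun _ _ _ _ => h_le_of,
    fun B hB => (sandwich B hB).mono fun k hk => ⟨jP_le_h k, hk⟩,
    fun _ => power, fun _ => polylog, vaughan_iff⟩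

end Vale.Agent.Results.P013.A0Primorials
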